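import Vale.Agent.P248.Equi.Core

/-!
# P248, equipartitioned bodies: the cones from a point over the faces of an orthant piece
-/

namespace Vale.Agent.P248.Equi

open MeasureTheory Set Matrix Function
open Vale.Agent.P227 (sec dot_insertNth continuous_insertNth_right volume_eq_lintegral_sec)
open scoped ENNReal Pointwise

noncomputable section

variable {n : ℕ}

theorem null_of_linear {φ : (Fin n → ℝ) →ₗ[ℝ] ℝ} {v : Fin n → ℝ} (hv : φ v ≠ 0) :
    volume {z : Fin n → ℝ | φ z = 0} = 0 := by
  refine Measure.addHaar_submodule volume (LinearMap.ker φ) fun h => hv ?_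
  rw [LinearMap.ker_eq_top.1 h]
  rfl

/-- A body is the union of its orthant pieces. -/
theorem volume_eq_pieces {K : Set (Fin n → ℝ)} (hK : IsClosed K) :
    volume K = ∑ ε : Fin n → Bool, volume (piece K (Embedding.refl _) ε) := by
  have hU : K = ⋃ ε : Fin n → Bool, piece K (Embedding.refl _) ε := by
    ext x
    simp only [mem_iUnion, piece, Set.mem_ofPred_eq, ext_refl]
    refine ⟨fun hx => ⟨fun i => decide (0 ≤ x i), hx, fun i => ?_⟩, fun ⟨_, hx, _⟩ => hx⟩
    by_cases h : 0 ≤ x i
    · simp [sgn, h]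
    · simp [sgn, h, le_of_not_ge h]
  conv_lhs => rw [hU]
  rw [measure_iUnion₀ (fun ε η hne => ?_) fun ε => (isClosed_piece hK _ ε).nullMeasurableSet,
    tsum_fintype]
  obtain ⟨i, hi⟩ := Function.ne_iff.1 hne
  refine measure_mono_null (t := {z | (LinearMap.proj i : (Fin n → ℝ) →ₗ[ℝ] ℝ) z = 0}) ?_
    (null_of_linear (v := Pi.single i 1) (by simp))
  rintro z ⟨⟨-, h1⟩, -, h2⟩
  have a1 := h1 i
  have a2 := h2 i
  show z i = 0
  cases hε : ε i <;> cases hη : η i <;> rw [hε] at a1 hi <;> rw [hη] at a2 hi <;>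
    simp only [sgn, cond_true, cond_false] at a1 a2 <;>
    first | exact absurd rfl hi | linarith

theorem sgn_mul_nonneg {ε : Bool} {v : ℝ} (h : 0 ≤ sgn ε * v) : sgn ε * v = |v| := by
  rw [← abs_of_nonneg h, abs_mul, abs_sgn, one_mul]

/-- The part of an orthant nearest to the face `a`, measured against `x`. -/
def cone (P : Set (Fin n → ℝ)) (x : Fin n → ℝ) (a : Fin n) : Set (Fin n → ℝ) :=
  P ∩ {z | ∀ b, x b ≠ 0 → |z a| * |x b| ≤ |z b| * |x a|}

theorem sum_cones_le {P : Set (Fin n → ℝ)} (hP : IsClosed P) {ε : Fin n → Bool}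
    (hsgn : ∀ z ∈ P, ∀ i, 0 ≤ sgn (ε i) * z i) {x : Fin n → ℝ} (A : Finset (Fin n))
    (hA : ∀ a ∈ A, x a ≠ 0) :
    ∑ a ∈ A, volume (cone P x a) ≤ volume P := by
  have hcl : ∀ a, IsClosed (cone P x a) := fun a => hP.inter (by
    simp only [Set.ofPred_forall]
    exact isClosed_iInter fun b => isClosed_iInter fun _ => isClosed_le
      ((continuous_apply a).abs.mul continuous_const)
      ((continuous_apply b).abs.mul continuous_const))
  rw [← measure_biUnion_finset₀ (fun a ha b hb hab => ?_) fun a _ => (hcl a).nullMeasurableSet]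
  · exact measure_mono (iUnion₂_subset fun a _ => inter_subset_left)
  set φ : (Fin n → ℝ) →ₗ[ℝ] ℝ := (sgn (ε a) * |x b|) • LinearMap.proj a
    - (sgn (ε b) * |x a|) • LinearMap.proj b
  refine measure_mono_null (t := {z | φ z = 0}) ?_
    (null_of_linear (v := Pi.single a 1) ?_)
  · rintro z ⟨⟨hz, h1⟩, -, h2⟩
    have e1 := h1 b (hA b hb)
    have e2 := h2 a (hA a ha)
    rw [← sgn_mul_nonneg (hsgn z hz a), ← sgn_mul_nonneg (hsgn z hz b)] at e1 e2
    show sgn (ε a) * |x b| * z a - sgn (ε b) * |x a| * z b = 0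
    linarith
  · simp only [φ, LinearMap.sub_apply, LinearMap.smul_apply, LinearMap.proj_apply,
      Pi.single_eq_same, Pi.single_eq_of_ne (Ne.symm hab), smul_eq_mul, mul_one, mul_zero, sub_zero]
    exact mul_ne_zero (fun h => by have := abs_sgn (ε a); simp [h] at this)
      (abs_ne_zero.2 (hA b hb))

/-- The cone over the face `a` with apex `x`. -/
theorem cone_volume {K : Set (Fin (n + 1) → ℝ)} (hK : Body K) {ε : Fin (n + 1) → Bool}
    {x : Fin (n + 1) → ℝ} (hx : x ∈ piece K (Embedding.refl _) ε) (a : Fin (n + 1)) :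
    ENNReal.ofReal (|x a| / (n + 1))
      * volume (piece K a.succAboveEmb fun i => ε (a.succAbove i))
      ≤ volume (cone (piece K (Embedding.refl _) ε) x a) := by
  set F := piece K a.succAboveEmb fun i => ε (a.succAbove i)
  obtain ⟨hxK, hxs⟩ := hx
  rw [ext_refl] at hxK
  set C := cone (piece K (Embedding.refl _) ε) x a
  have hC : MeasurableSet C := by
    refine ((isClosed_piece hK.compact.isClosed _ _).inter ?_).measurableSet
    simp only [Set.ofPred_forall]
    exact isClosed_iInter fun b => isClosed_iInter fun _ => isClosed_le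
      ((continuous_apply a).abs.mul continuous_const)
      ((continuous_apply b).abs.mul continuous_const)
  rcases eq_or_ne (x a) 0 with h0 | h0
  · simp [h0]
  have key : ∀ z ∈ uIoc 0 (x a),
      ENNReal.ofReal ((1 - z / x a) ^ n) * volume F ≤ volume (sec a C z) := by
    intro z hz
    set t := z / x a with ht
    have ht01 : 0 ≤ t ∧ t ≤ 1 := by
      rcases lt_or_gt_of_ne h0 with h | h
      · rw [uIoc_of_ge h.le] at hz
        exact ⟨div_nonneg_of_nonpos (hz.2) h.le, (div_le_one_of_neg h).2 hz.1.le⟩
      · rw [uIoc_of_le h.le] at hz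
        exact ⟨div_nonneg hz.1.le h.le, (div_le_one h).2 hz.2⟩
    have hz' : z = t * x a := (div_mul_cancel₀ z h0).symm
    set x' : Fin n → ℝ := fun i => x (a.succAbove i)
    have hsub : (fun v => t • x' + v) '' ((1 - t) • F) ⊆ sec a C z := by
      rintro _ ⟨_, ⟨y, ⟨hyK, hys⟩, rfl⟩, rfl⟩
      rw [show ext a.succAboveEmb y = (a.insertNth 0 y : Fin (n + 1) → ℝ) by
        have := ext_trans a (Embedding.refl _) y
        rw [ext_refl] at this
        exact this] at hyK
      set w : Fin (n + 1) → ℝ := a.insertNth z (t • x' + (1 - t) • y)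
      have hw : w = t • x + (1 - t) • (a.insertNth 0 y : Fin (n + 1) → ℝ) := by
        funext i
        refine a.succAboveCases ?_ (fun j => ?_) i <;> simp [w, x', ← hz']
      have hwa : w a = t * x a := by simp [w, hz']
      have hwb : ∀ j, w (a.succAbove j) = t * x (a.succAbove j) + (1 - t) * y j := fun j => by
        simp [w, x']
      have hws : ∀ i, 0 ≤ sgn (ε i) * w i := by
        refine fun i => a.succAboveCases ?_ (fun j => ?_) i
        · rw [hwa, show sgn (ε a) * (t * x a) = t * (sgn (ε a) * x a) by ring]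
          exact mul_nonneg ht01.1 (hxs a)
        · rw [hwb, show ∀ p q : ℝ, sgn (ε (a.succAbove j)) * (t * p + (1 - t) * q)
            = t * (sgn (ε (a.succAbove j)) * p) + (1 - t) * (sgn (ε (a.succAbove j)) * q) from
              fun p q => by ring]
          exact add_nonneg (mul_nonneg ht01.1 (hxs _))
            (mul_nonneg (by linarith) (hys j))
      refine ⟨⟨?_, hws⟩, fun b hb => ?_⟩
      · rw [ext_refl]
        show w ∈ K
        rw [hw]
        exact hK.convex hxK hyK ht01.1 (by linarith) (by ring)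
      · show |w a| * |x b| ≤ |w b| * |x a|
        have hge : t * |x b| ≤ |w b| := by
          revert hb
          refine a.succAboveCases (fun _ => ?_) (fun j => fun _ => ?_) b
          · rw [hwa, abs_mul, abs_of_nonneg ht01.1]
          · rw [← sgn_mul_nonneg (hxs _), ← sgn_mul_nonneg (hws _), hwb]
            have := mul_nonneg (sub_nonneg.2 ht01.2) (hys j)
            linarith
        rw [hwa, abs_mul, abs_of_nonneg ht01.1,
          show t * |x a| * |x b| = t * |x b| * |x a| by ring]
        exact mul_le_mul_of_nonneg_right hge (abs_nonneg _)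
    refine le_trans (le_of_eq ?_) (measure_mono hsub)
    rw [image_add_left, measure_preimage_add,
      Measure.addHaar_smul_of_nonneg volume (by linarith [ht01.2] : (0 : ℝ) ≤ 1 - t),
      Module.finrank_fin_fun]
  rw [volume_eq_lintegral_sec a hC]
  refine le_trans ?_ (setLIntegral_le_lintegral (uIoc 0 (x a)) _)
  refine le_trans (le_of_eq ?_) (setLIntegral_mono' measurableSet_uIoc key)
  rw [lintegral_mul_const _ (by fun_prop), ← ofReal_integral_eq_lintegral_ofReal]
  · congr 2
    have h : ∫ z in (0 : ℝ)..x a, (1 - z / x a) ^ n = x a / (n + 1) := by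
      rw [intervalIntegral.integral_comp_sub_div (fun s => s ^ n) h0 1]
      simp [h0, div_eq_mul_inv]
    have := congrArg abs h
    rw [intervalIntegral.abs_intervalIntegral_eq, abs_div, abs_of_pos (by positivity : (0 : ℝ) < n + 1)]
      at this
    rw [← this, abs_of_nonneg]
    refine setIntegral_nonneg measurableSet_uIoc fun z hz => pow_nonneg (sub_nonneg.2 ?_) _
    rcases lt_or_gt_of_ne h0 with h | h
    · rw [uIoc_of_ge h.le] at hz
      exact (div_le_one_of_neg h).2 hz.1.le
    · rw [uIoc_of_le h.le] at hz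
      exact (div_le_one h).2 hz.2
  · exact ((by fun_prop : Continuous fun z : ℝ => (1 - z / x a) ^ n)).integrableOn_uIoc
  · refine (ae_restrict_iff' measurableSet_uIoc).2 (ae_of_all _ fun z hz => pow_nonneg ?_ _)
    rcases lt_or_gt_of_ne h0 with h | h
    · rw [uIoc_of_ge h.le] at hz
      exact sub_nonneg.2 ((div_le_one_of_neg h).2 hz.1.le)
    · rw [uIoc_of_le h.le] at hz
      exact sub_nonneg.2 ((div_le_one h).2 hz.2)

end

end Vale.Agent.P248.Equi
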