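import Vale.Agent.P227.Symmetric

/-!
# P248, equipartitioned bodies: definitions, polar bodies, sections
-/

namespace Vale.Agent.P248.Equi

open MeasureTheory Set Matrix Function
open Vale.Agent.P227 (sec dot_insertNth continuous_insertNth_right continuous_dot)
open scoped ENNReal

noncomputable section

variable {n k : ℕ}

/-- The polar set. -/
def dual (K : Set (Fin n → ℝ)) : Set (Fin n → ℝ) := {y | ∀ x ∈ K, y ⬝ᵥ x ≤ 1}

/-- A compact convex symmetric neighbourhood of the origin. -/
structure Body (K : Set (Fin n → ℝ)) : Prop where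
  compact : IsCompact K
  convex : Convex ℝ K
  neg_mem : ∀ x ∈ K, -x ∈ K
  zero_int : (0 : Fin n → ℝ) ∈ interior K

/-- The sign of a Boolean. -/
def sgn (b : Bool) : ℝ := bif b then 1 else -1

theorem abs_sgn (b : Bool) : |sgn b| = 1 := by cases b <;> simp [sgn]

theorem sgn_mul_self (b : Bool) : sgn b * sgn b = 1 := by cases b <;> simp [sgn]

theorem sgn_not (b : Bool) : sgn (!b) = -sgn b := by cases b <;> simp [sgn]

/-- The point with coordinates `y` on the axes `ι`, zero elsewhere. -/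
def ext (ι : Fin k ↪ Fin n) (y : Fin k → ℝ) : Fin n → ℝ :=
  Function.extend ι y (0 : Fin n → ℝ)

/-- An orthant piece of a coordinate section. -/
def piece (K : Set (Fin n → ℝ)) (ι : Fin k ↪ Fin n) (ε : Fin k → Bool) : Set (Fin k → ℝ) :=
  {y | ext ι y ∈ K ∧ ∀ i, 0 ≤ sgn (ε i) * y i}

/-- All orthant pieces of every coordinate section have equal volume. -/
def Part (K : Set (Fin n → ℝ)) : Prop :=
  ∀ (k : ℕ) (ι : Fin k ↪ Fin n) (ε ε' : Fin k → Bool),
    volume (piece K ι ε) = volume (piece K ι ε')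

theorem ext_apply (ι : Fin k ↪ Fin n) (y : Fin k → ℝ) (i : Fin k) : ext ι y (ι i) = y i :=
  ι.injective.extend_apply y (0 : Fin n → ℝ) i

theorem ext_apply' (ι : Fin k ↪ Fin n) (y : Fin k → ℝ) {j : Fin n} (h : ¬∃ i, ι i = j) :
    ext ι y j = 0 :=
  Function.extend_apply' y (0 : Fin n → ℝ) j h

theorem ext_refl (y : Fin n → ℝ) : ext (Embedding.refl _) y = y := by
  funext j
  exact ext_apply (Embedding.refl _) y j

theorem continuous_ext (ι : Fin k ↪ Fin n) : Continuous (ext ι) := by
  refine continuous_pi fun j => ?_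
  by_cases h : ∃ i, ι i = j
  · obtain ⟨i, rfl⟩ := h
    simp only [ext_apply]
    exact continuous_apply i
  · simp only [ext_apply' ι _ h]
    exact continuous_const

theorem ext_trans (a : Fin (n + 1)) (ι : Fin k ↪ Fin n) (y : Fin k → ℝ) :
    ext (ι.trans a.succAboveEmb) y = (a.insertNth 0 (ext ι y) : Fin (n + 1) → ℝ) := by
  funext j
  refine a.succAboveCases ?_ (fun m => ?_) j
  · rw [Fin.insertNth_apply_same, ext_apply']
    exact fun ⟨i, hi⟩ => Fin.succAbove_ne a (ι i) hi
  · rw [Fin.insertNth_apply_succAbove]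
    by_cases h : ∃ i, ι i = m
    · obtain ⟨i, rfl⟩ := h
      rw [ext_apply]
      exact ext_apply (ι.trans a.succAboveEmb) y i
    · rw [ext_apply' ι y h, ext_apply']
      exact fun ⟨i, hi⟩ => h ⟨i, Fin.succAbove_right_injective hi⟩

theorem isClosed_piece {K : Set (Fin n → ℝ)} (hK : IsClosed K) (ι : Fin k ↪ Fin n)
    (ε : Fin k → Bool) : IsClosed (piece K ι ε) := by
  have h : piece K ι ε = ext ι ⁻¹' K ∩ ⋂ i, {y : Fin k → ℝ | 0 ≤ sgn (ε i) * y i} := by
    ext y
    simp [piece]
  rw [h]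
  exact (hK.preimage (continuous_ext ι)).inter (isClosed_iInter fun i =>
    isClosed_le continuous_const (continuous_const.mul (continuous_apply i)))

theorem part_sec {K : Set (Fin (n + 1) → ℝ)} (h : Part K) (a : Fin (n + 1)) :
    Part (sec a K 0) := by
  intro k ι ε ε'
  have e : ∀ η, piece (sec a K 0) ι η = piece K (ι.trans a.succAboveEmb) η := fun η => by
    ext y
    show (a.insertNth 0 (ext ι y) : Fin (n + 1) → ℝ) ∈ K ∧ _ ↔ _
    rw [← ext_trans]
    rfl
  rw [e, e]
  exact h k _ ε ε'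

theorem Body.zero_mem {K : Set (Fin n → ℝ)} (hK : Body K) : (0 : Fin n → ℝ) ∈ K :=
  interior_subset hK.zero_int

theorem insertNth_zero_smul (a : Fin (n + 1)) (c d : ℝ) (y w : Fin n → ℝ) :
    c • (a.insertNth 0 y : Fin (n + 1) → ℝ) + d • a.insertNth 0 w
      = a.insertNth 0 (c • y + d • w) := by
  funext i
  refine a.succAboveCases ?_ (fun j => ?_) i <;> simp

theorem Body.section_zero {K : Set (Fin (n + 1) → ℝ)} (hK : Body K) (a : Fin (n + 1)) :
    Body (sec a K 0) where
  compact := by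
    refine (hK.compact.image (f := fun x => fun j => x (a.succAbove j))
      (continuous_pi fun j => continuous_apply _)).of_isClosed_subset
      (hK.compact.isClosed.preimage (continuous_insertNth_right a 0)) fun y hy => ⟨_, hy, ?_⟩
    funext j
    simp
  convex := fun y hy w hw c d hc hd hcd => by
    show (a.insertNth 0 (c • y + d • w) : Fin (n + 1) → ℝ) ∈ K
    rw [← insertNth_zero_smul]
    exact hK.convex hy hw hc hd hcd
  neg_mem := fun y hy => by
    show (a.insertNth 0 (-y) : Fin (n + 1) → ℝ) ∈ K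
    convert hK.neg_mem _ hy using 1
    funext i
    refine a.succAboveCases ?_ (fun j => ?_) i <;> simp
  zero_int := by
    refine interior_maximal (t := (fun y : Fin n → ℝ => (a.insertNth 0 y : Fin (n + 1) → ℝ))
      ⁻¹' interior K) (fun y hy => show (a.insertNth 0 y : Fin (n + 1) → ℝ) ∈ K from interior_subset (s := K) hy)
      (isOpen_interior.preimage (continuous_insertNth_right a 0)) ?_
    show (a.insertNth 0 0 : Fin (n + 1) → ℝ) ∈ interior K
    have h : (a.insertNth 0 0 : Fin (n + 1) → ℝ) = 0 := by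
      funext i
      refine a.succAboveCases ?_ (fun j => ?_) i <;> simp
    rw [h]
    exact hK.zero_int

theorem Body.exists_axis {K : Set (Fin n → ℝ)} (hK : Body K) :
    ∃ δ : ℝ, 0 < δ ∧ ∀ i, (Pi.single i δ : Fin n → ℝ) ∈ K := by
  obtain ⟨δ, hδ, hb⟩ := Metric.isOpen_iff.1 isOpen_interior _ hK.zero_int
  refine ⟨δ / 2, half_pos hδ, fun i => interior_subset (hb ?_)⟩
  rw [mem_ball_zero_iff, pi_norm_lt_iff hδ]
  intro j
  rcases eq_or_ne j i with rfl | h
  · rw [Pi.single_eq_same, Real.norm_of_nonneg (half_pos hδ).le]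
    linarith
  · rw [Pi.single_eq_of_ne h, norm_zero]
    exact hδ

theorem isCompact_dual {K : Set (Fin n → ℝ)} (hK : Body K) : IsCompact (dual K) := by
  obtain ⟨δ, hδ, hax⟩ := hK.exists_axis
  have hc : IsClosed (dual K) := by
    have h : dual K = ⋂ x ∈ K, {y : Fin n → ℝ | y ⬝ᵥ x ≤ 1} := by ext; simp [dual]
    rw [h]
    refine isClosed_biInter fun x _ => isClosed_le ?_ continuous_const
    simp only [dotProduct]
    fun_prop
  refine (isCompact_univ_pi fun _ : Fin n =>
    isCompact_Icc (a := -(1 / δ)) (b := 1 / δ)).of_isClosed_subset hc fun y hy i _ => ?_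
  have h1 := hy _ (hax i)
  have h2 := hy _ (hK.neg_mem _ (hax i))
  rw [dotProduct_single] at h1
  rw [dotProduct_neg, dotProduct_single] at h2
  refine ⟨?_, ?_⟩
  · rw [neg_le, le_div_iff₀ hδ]; linarith
  · rw [le_div_iff₀ hδ]; linarith

theorem convex_dual (K : Set (Fin n → ℝ)) : Convex ℝ (dual K) := fun y hy w hw a b ha hb hab x hx => by
  rw [add_dotProduct, smul_dotProduct, smul_dotProduct, smul_eq_mul, smul_eq_mul]
  calc a * (y ⬝ᵥ x) + b * (w ⬝ᵥ x) ≤ a * 1 + b * 1 :=
        add_le_add (mul_le_mul_of_nonneg_left (hy x hx) ha) (mul_le_mul_of_nonneg_left (hw x hx) hb)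
    _ = 1 := by rw [mul_one, mul_one, hab]

theorem zero_mem_dual (K : Set (Fin n → ℝ)) : (0 : Fin n → ℝ) ∈ dual K := fun x _ => by simp

/-- Strict separation of a point, with threshold `1`. -/
theorem exists_sep {C : Set (Fin n → ℝ)} (hc : IsCompact C) (hv : Convex ℝ C)
    (h0 : (0 : Fin n → ℝ) ∈ C) {z : Fin n → ℝ} (hz : z ∉ C) :
    ∃ v : Fin n → ℝ, (∀ x ∈ C, v ⬝ᵥ x ≤ 1) ∧ 1 < v ⬝ᵥ z := by
  obtain ⟨f, u, hf, hu⟩ := geometric_hahn_banach_closed_point hv hc.isClosed hz
  have hu0 : 0 < u := by simpa using hf 0 h0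
  have hdot : ∀ x, (fun i => f (Pi.single i 1) / u) ⬝ᵥ x = f x / u := by
    intro x
    conv_rhs => rw [← Finset.univ_sum_single x, map_sum, Finset.sum_div]
    refine Finset.sum_congr rfl fun i _ => ?_
    rw [show (Pi.single i (x i) : Fin n → ℝ) = x i • Pi.single i 1 by
      rw [← Pi.single_smul, smul_eq_mul, mul_one], map_smul, smul_eq_mul]
    ring
  exact ⟨_, fun x hx => by rw [hdot, div_le_one hu0]; exact (hf x hx).le,
    by rw [hdot, one_lt_div hu0]; exact hu⟩

theorem mem_of_dual {K : Set (Fin n → ℝ)} (hK : Body K) {z : Fin n → ℝ}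
    (h : ∀ y ∈ dual K, y ⬝ᵥ z ≤ 1) : z ∈ K := by
  by_contra hz
  obtain ⟨v, hv, hvz⟩ := exists_sep hK.compact hK.convex hK.zero_mem hz
  exact absurd (h v hv) (not_le.2 hvz)

/-- The polar of a section lies in the projection of the polar. -/
theorem dual_sec_subset {K : Set (Fin (n + 1) → ℝ)} (hK : Body K) (a : Fin (n + 1)) :
    dual (sec a K 0) ⊆ (fun y => a.removeNth y) '' dual K := by
  intro y hy
  by_contra hn
  have hcont : Continuous fun w : Fin (n + 1) → ℝ => a.removeNth w :=
    continuous_pi fun j => continuous_apply _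
  obtain ⟨v, hv, hvy⟩ := exists_sep ((isCompact_dual hK).image hcont)
    ((convex_dual K).is_linear_image ⟨fun _ _ => rfl, fun _ _ => rfl⟩)
    ⟨0, zero_mem_dual K, rfl⟩ hn
  have hmem : v ∈ sec a K 0 := mem_of_dual hK fun w hw => by
    rw [← Fin.insertNth_self_removeNth a w, dot_insertNth, mul_zero, zero_add, dotProduct_comm]
    exact hv _ ⟨w, hw, rfl⟩
  have := hy v hmem
  rw [dotProduct_comm] at this
  exact absurd this (not_le.2 hvy)

end

end Vale.Agent.P248.Equi
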