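import Vale.Agent.P248.Equi.Core

/-!
# P248, equipartitioned bodies: adding a box to a body

Adding the segment `[-d, d] e_a` adds at least `2 d` times the volume of the projection.
-/

namespace Vale.Agent.P248.Equi

open MeasureTheory Set Matrix Function Filter
open Vale.Agent.P227 (sec continuous_insertNth_right)
open scoped ENNReal Topology

noncomputable section

variable {n : ℕ}

theorem measurePreserving_split (a : Fin (n + 1)) :
    MeasurePreserving (MeasurableEquiv.piFinSuccAbove (fun _ : Fin (n + 1) => ℝ) a).symm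
      ((volume : Measure ℝ).prod (volume : Measure (Fin n → ℝ))) volume :=
  (volume_preserving_piFinSuccAbove (fun _ : Fin (n + 1) => ℝ) a).symm

theorem volume_eq_fibres (a : Fin (n + 1)) {L : Set (Fin (n + 1) → ℝ)} (hL : MeasurableSet L) :
    volume L = ∫⁻ y, volume {z : ℝ | (a.insertNth z y : Fin (n + 1) → ℝ) ∈ L} := by
  have mp := measurePreserving_split (n := n) a
  rw [← mp.measure_preimage hL.nullMeasurableSet,
    Measure.prod_apply_symm (mp.measurable hL)]
  rfl

theorem add_segment {a : Fin (n + 1)} {L : Set (Fin (n + 1) → ℝ)} (hL : IsCompact L)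
    {M : Set (Fin (n + 1) → ℝ)} (hM : MeasurableSet M) {d : ℝ} (hd : 0 ≤ d)
    (hsub : ∀ l ∈ L, ∀ s ∈ Icc (-d) d, l + Pi.single a s ∈ M) :
    volume L + ENNReal.ofReal (2 * d) * volume ((fun y => a.removeNth y) '' L) ≤ volume M := by
  set P : Set (Fin n → ℝ) := (fun y => a.removeNth y) '' L
  have hP : MeasurableSet P := (hL.image (continuous_pi fun j => continuous_apply _)).measurableSet
  rw [volume_eq_fibres a hL.measurableSet, volume_eq_fibres a hM,
    ← lintegral_indicator_const hP, ← lintegral_add_right _ (measurable_const.indicator hP)]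
  refine lintegral_mono fun y => ?_
  set I := {z : ℝ | (a.insertNth z y : Fin (n + 1) → ℝ) ∈ L}
  set J := {z : ℝ | (a.insertNth z y : Fin (n + 1) → ℝ) ∈ M}
  have hmem : ∀ z ∈ I, ∀ s ∈ Icc (-d) d, z + s ∈ J := fun z hz s hs => by
    have h := hsub _ hz s hs
    show (a.insertNth (z + s) y : Fin (n + 1) → ℝ) ∈ M
    convert h using 1
    funext i
    refine a.succAboveCases ?_ (fun j => ?_) i <;> simp
  by_cases hy : y ∈ P
  swap
  · rw [Set.indicator_of_notMem hy, add_zero]
    exact measure_mono fun z hz => by simpa using hmem z hz 0 ⟨by linarith, hd⟩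
  rw [Set.indicator_of_mem hy]
  have hIc : IsCompact I := by
    have hc : Continuous fun z : ℝ => (a.insertNth z y : Fin (n + 1) → ℝ) :=
      continuous_pi fun i => by
        refine a.succAboveCases ?_ (fun j => ?_) i
        · simp only [Fin.insertNth_apply_same]; exact continuous_id
        · simp only [Fin.insertNth_apply_succAbove]; exact continuous_const
    refine (hL.image (continuous_apply a)).of_isClosed_subset (hL.isClosed.preimage hc)
      fun z hz => ⟨_, hz, Fin.insertNth_apply_same (α := fun _ => ℝ) a z y⟩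
  have hIne : I.Nonempty := by
    obtain ⟨l, hl, rfl⟩ := hy
    exact ⟨l a, by show _ ∈ L; rwa [Fin.insertNth_self_removeNth]⟩
  set m := sInf I
  set u := sSup I
  have hm := hIc.sInf_mem hIne
  have hu := hIc.sSup_mem hIne
  have hle : ∀ z ∈ I, m ≤ z ∧ z ≤ u := fun z hz =>
    ⟨csInf_le hIc.bddBelow hz, le_csSup hIc.bddAbove hz⟩
  have hsubJ : I ∪ Ioc u (u + d) ∪ Ico (m - d) m ⊆ J := by
    rintro z ((hz | ⟨h1, h2⟩) | ⟨h1, h2⟩)
    · simpa using hmem z hz 0 ⟨by linarith, hd⟩
    · simpa using hmem u hu (z - u) ⟨by linarith, by linarith⟩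
    · simpa using hmem m hm (z - m) ⟨by linarith, by linarith⟩
  refine le_trans (le_of_eq ?_) (measure_mono hsubJ)
  rw [measure_union ?_ measurableSet_Ico, measure_union ?_ measurableSet_Ioc, Real.volume_Ioc,
    Real.volume_Ico, add_sub_cancel_left, sub_sub_cancel, two_mul, ENNReal.ofReal_add hd hd,
    ← add_assoc]
  · exact disjoint_left.2 fun z hz hz' => absurd ((hle z hz).2) (not_le.2 hz'.1)
  · refine disjoint_left.2 fun z hz hz' => ?_
    rcases hz with hz | hz
    · exact absurd ((hle z hz).1) (not_le.2 hz'.2)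
    · exact absurd ((hle m hm).2) (not_le.2 (hz.1.trans hz'.2))

/-- The box with half sides `c` on the coordinates in `S`. -/
def box (S : Finset (Fin n)) (c : Fin n → ℝ) : Set (Fin n → ℝ) :=
  univ.pi fun i => if i ∈ S then Icc (-c i) (c i) else {0}

theorem isCompact_box (S : Finset (Fin n)) (c : Fin n → ℝ) : IsCompact (box S c) := by
  refine isCompact_univ_pi fun i => ?_
  split_ifs
  · exact isCompact_Icc
  · exact isCompact_singleton

theorem mem_box {S : Finset (Fin n)} {c w : Fin n → ℝ} :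
    w ∈ box S c ↔ ∀ i, (i ∈ S → w i ∈ Icc (-c i) (c i)) ∧ (i ∉ S → w i = 0) := by
  refine ⟨fun h i => ⟨fun hi => ?_, fun hi => ?_⟩, fun h i _ => ?_⟩
  · simpa [hi] using h i trivial
  · simpa [hi] using h i trivial
  · by_cases hi : i ∈ S
    · simpa [hi] using (h i).1 hi
    · simpa [hi] using (h i).2 hi

/-- Adding a box. -/
theorem add_box {L : Set (Fin (n + 1) → ℝ)} (hL : IsCompact L) {c : Fin (n + 1) → ℝ}
    (hc : ∀ i, 0 ≤ c i) (S : Finset (Fin (n + 1))) :
    volume L + ∑ a ∈ S, ENNReal.ofReal (2 * c a) * volume ((fun y => a.removeNth y) '' L)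
      ≤ volume ((fun q => q.1 + q.2) '' (L ×ˢ box S c)) := by
  induction S using Finset.induction_on with
  | empty =>
    rw [Finset.sum_empty, add_zero]
    exact measure_mono fun l hl => ⟨(l, 0), ⟨hl, mem_box.2 fun i => by simp⟩, add_zero l⟩
  | @insert a S ha ih =>
    have hcomp : ∀ T : Finset (Fin (n + 1)),
        IsCompact ((fun q => q.1 + q.2) '' (L ×ˢ box T c)) := fun T =>
      (hL.prod (isCompact_box T c)).image (continuous_fst.add continuous_snd)
    rw [Finset.sum_insert ha, add_comm (ENNReal.ofReal _ * _), ← add_assoc]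
    have hLS : L ⊆ (fun q => q.1 + q.2) '' (L ×ˢ box S c) := fun l hl => ⟨(l, 0), ⟨hl, mem_box.2
      fun i => ⟨fun _ => ⟨neg_nonpos.2 (hc i), hc i⟩, fun _ => rfl⟩⟩, add_zero l⟩
    refine le_trans (add_le_add ih (mul_le_mul_right (measure_mono (image_mono hLS)) _)) ?_
    refine add_segment (hcomp S) (hcomp _).measurableSet (hc a) ?_
    rintro _ ⟨⟨l, w⟩, ⟨hl, hw⟩, rfl⟩ s hs
    refine ⟨(l, w + Pi.single a s), ⟨hl, mem_box.2 fun i => ?_⟩, (add_assoc l w _).symm⟩
    rcases eq_or_ne i a with rfl | hi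
    · have h0 : w i = 0 := ((mem_box.1 hw) i).2 ha
      simpa [h0] using hs
    · simpa [hi] using (mem_box.1 hw) i

/-- If the box lies in a convex body, the sum over the projections is at most `n |L| / 2`. -/
theorem proj_sum_le {L : Set (Fin (n + 1) → ℝ)} (hL : IsCompact L) (hv : Convex ℝ L)
    {c : Fin (n + 1) → ℝ} (hc : ∀ i, 0 ≤ c i) (hbox : ∀ w, (∀ i, |w i| ≤ c i) → w ∈ L) :
    2 * ∑ a, c a * volume.real ((fun y => a.removeNth y) '' L) ≤ (n + 1) * volume.real L := by
  set Q := fun a : Fin (n + 1) => (fun y => a.removeNth y) '' L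
  set W := volume.real L
  have hQ : ∀ a, volume (Q a) ≠ ⊤ := fun a =>
    ((hL.image (f := fun y => a.removeNth y) (continuous_pi fun j => continuous_apply _)).measure_lt_top
      (μ := volume)).ne
  have key : ∀ t : ℝ, 0 < t → 2 * ∑ a, c a * volume.real (Q a) ≤ ((n + 1 : ℕ) : ℝ) * W * (1 + t) ^ (n + 1) := by
    intro t ht
    have h1 := add_box (c := fun i => t * c i) hL (fun i => mul_nonneg ht.le (hc i)) Finset.univ
    have h2 : (fun q : (Fin (n + 1) → ℝ) × (Fin (n + 1) → ℝ) => q.1 + q.2)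
        '' (L ×ˢ box Finset.univ fun i => t * c i) ⊆ (fun x => (1 + t) • x) '' L := by
      rintro _ ⟨⟨l, w⟩, ⟨hl, hw⟩, rfl⟩
      have hw' : t⁻¹ • w ∈ L := hbox _ fun i => by
        have h := abs_le.2 ((mem_box.1 hw i).1 (Finset.mem_univ i))
        rw [Pi.smul_apply, smul_eq_mul, abs_mul, abs_inv, abs_of_pos ht, inv_mul_le_iff₀ ht]
        exact h
      refine ⟨(1 / (1 + t)) • l + (t / (1 + t)) • (t⁻¹ • w),
        hv hl hw' (by positivity) (by positivity) (by field_simp), ?_⟩
      funext i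
      simp only [Pi.smul_apply, Pi.add_apply, smul_eq_mul]
      field_simp
    have h3 := h1.trans (measure_mono h2)
    rw [image_smul, Measure.addHaar_smul_of_nonneg volume (by linarith : (0 : ℝ) ≤ 1 + t),
      Module.finrank_fin_fun] at h3
    have hfin : ∀ a ∈ (Finset.univ : Finset (Fin (n + 1))),
        ENNReal.ofReal (2 * (t * c a)) * volume (Q a) ≠ ⊤ := fun a _ =>
      ENNReal.mul_ne_top ENNReal.ofReal_ne_top (hQ a)
    have h4 := ENNReal.toReal_mono (ENNReal.mul_ne_top ENNReal.ofReal_ne_top hL.measure_lt_top.ne) h3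
    rw [ENNReal.toReal_add hL.measure_lt_top.ne (ENNReal.sum_ne_top.2 hfin),
      ENNReal.toReal_sum hfin, ENNReal.toReal_mul,
      ENNReal.toReal_ofReal (by positivity : (0 : ℝ) ≤ (1 + t) ^ (n + 1))] at h4
    have h5 : ∑ a, (ENNReal.ofReal (2 * (t * c a)) * volume (Q a)).toReal
        = t * (2 * ∑ a, c a * volume.real (Q a)) := by
      rw [Finset.mul_sum, Finset.mul_sum]
      refine Finset.sum_congr rfl fun a _ => ?_
      rw [ENNReal.toReal_mul, ENNReal.toReal_ofReal (by have := hc a; positivity), Measure.real]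
      ring
    rw [h5] at h4
    have hW : 0 ≤ W := ENNReal.toReal_nonneg
    have hb := one_add_mul_le_pow (a := -(t / (1 + t))) (by
      rw [neg_le_neg_iff, div_le_iff₀ (by linarith : (0 : ℝ) < 1 + t)]; linarith) (n + 1)
    have hp : (0 : ℝ) < (1 + t) ^ (n + 1) := by positivity
    have he : (1 + -(t / (1 + t))) ^ (n + 1) * (1 + t) ^ (n + 1) = 1 := by
      rw [← mul_pow, show (1 + -(t / (1 + t))) * (1 + t) = 1 by field_simp; ring, one_pow]
    have hb' := mul_le_mul_of_nonneg_right hb hp.le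
    rw [he] at hb'
    have hfac : (1 + t) ^ (n + 1) - 1 ≤ ((n + 1 : ℕ) : ℝ) * t * (1 + t) ^ (n + 1) := by
      have h6 : t / (1 + t) ≤ t := div_le_self ht.le (by linarith)
      have h7 := mul_le_mul_of_nonneg_right
        (mul_le_mul_of_nonneg_left h6 (Nat.cast_nonneg (n + 1) : (0 : ℝ) ≤ ((n + 1 : ℕ) : ℝ))) hp.le
      linarith
    refine le_of_mul_le_mul_left ?_ ht
    have h8 := mul_le_mul_of_nonneg_right hfac hW
    simp only [Measure.real] at h4 h8 ⊢
    simp only [W, Measure.real] at h8 ⊢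
    linarith
  have hlim : Tendsto (fun t : ℝ => ((n + 1 : ℕ) : ℝ) * W * (1 + t) ^ (n + 1)) (𝓝[>] 0) (𝓝 (((n + 1 : ℕ) : ℝ) * W)) := by
    refine tendsto_nhdsWithin_of_tendsto_nhds ?_
    have hcont : Continuous fun t : ℝ => ((n + 1 : ℕ) : ℝ) * W * (1 + t) ^ (n + 1) := by fun_prop
    simpa using hcont.tendsto 0
  have := ge_of_tendsto hlim (eventually_nhdsWithin_of_forall fun t ht => key t ht)
  push_cast at this
  exact this

end

end Vale.Agent.P248.Equi
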