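import Vale.Agent.P248.Equi.Cones
import Vale.Agent.P248.Equi.Sausage

/-!
# P248, equipartitioned bodies: the induction on the dimension
-/

namespace Vale.Agent.P248.Equi

open MeasureTheory Set Matrix Function
open Vale.Agent.P227 (sec)
open scoped ENNReal Nat

noncomputable section

variable {n : ℕ}

theorem Body.dual_volume_ne_top {K : Set (Fin n → ℝ)} (hK : Body K) : volume (dual K) ≠ ⊤ :=
  (isCompact_dual hK).measure_lt_top.ne

theorem Body.volume_pos {K : Set (Fin n → ℝ)} (hK : Body K) : 0 < volume.real K :=
  ENNReal.toReal_pos (Measure.measure_pos_of_nonempty_interior volume ⟨0, hK.zero_int⟩).ne'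
    hK.compact.measure_lt_top.ne

theorem volume_sec_eq_piece {K : Set (Fin (n + 1) → ℝ)} (hK : Body K) (hP : Part K)
    (a : Fin (n + 1)) (η : Fin n → Bool) :
    volume.real (sec a K 0) = 2 ^ n * volume.real (piece K a.succAboveEmb η) := by
  have e : ∀ ζ, piece (sec a K 0) (Embedding.refl _) ζ = piece K a.succAboveEmb ζ := fun ζ => by
    ext y
    show (a.insertNth 0 (ext (Embedding.refl _) y) : Fin (n + 1) → ℝ) ∈ K ∧ _ ↔ _
    rw [← ext_trans]
    rfl
  rw [Measure.real, volume_eq_pieces (hK.section_zero a).compact.isClosed, Finset.sum_congr rfl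
    (fun ζ _ => show volume (piece (sec a K 0) (Embedding.refl _) ζ)
      = volume (piece K a.succAboveEmb η) by rw [e]; exact hP n _ ζ η),
    Finset.sum_const, Finset.card_univ, Fintype.card_fun, Fintype.card_fin, Fintype.card_bool,
    nsmul_eq_mul, ENNReal.toReal_mul]
  simp [Measure.real]

/-- The recursion: the box of normalised faces lies in the polar. -/
theorem step {K : Set (Fin (n + 1) → ℝ)} (hK : Body K) (hP : Part K) :
    4 * ∑ a, volume.real (sec a K 0) * volume.real (dual (sec a K 0))
      ≤ ((n : ℝ) + 1) ^ 2 * (volume.real K * volume.real (dual K)) := by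
  have hKc := hK.compact.isClosed
  set ε₀ : Fin (n + 1) → Bool := fun _ => true
  set η₀ : Fin n → Bool := fun _ => true
  set V1 := volume.real (piece K (Embedding.refl _) ε₀)
  have hpiece : ∀ ε, volume (piece K (Embedding.refl (Fin (n + 1))) ε) ≠ ⊤ := fun ε =>
    ne_top_of_le_ne_top hK.compact.measure_lt_top.ne (measure_mono fun y hy => by
      have := hy.1; rwa [ext_refl] at this)
  have hV : volume.real K = 2 ^ (n + 1) * V1 := by
    rw [Measure.real, volume_eq_pieces hKc, Finset.sum_congr rfl (fun ε _ => hP _ _ ε ε₀),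
      Finset.sum_const, Finset.card_univ, Fintype.card_fun, Fintype.card_fin, Fintype.card_bool,
      nsmul_eq_mul, ENNReal.toReal_mul]
    simp [V1, Measure.real]
  have hV1 : 0 < V1 := by
    have := hK.volume_pos
    rw [hV] at this
    exact (mul_pos_iff_of_pos_left (by positivity)).1 this
  set A := fun a : Fin (n + 1) => volume.real (piece K a.succAboveEmb η₀)
  have hA0 : ∀ a, 0 ≤ A a := fun a => ENNReal.toReal_nonneg
  have hcone : ∀ x ∈ K, ∑ a, |x a| * A a ≤ ((n : ℝ) + 1) * V1 := by
    intro x hx
    set ε : Fin (n + 1) → Bool := fun i => decide (0 ≤ x i)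
    have hxp : x ∈ piece K (Embedding.refl _) ε := by
      refine ⟨by rwa [ext_refl], fun i => ?_⟩
      by_cases h : 0 ≤ x i
      · simp [ε, sgn, h]
      · simp [ε, sgn, h, le_of_not_ge h]
    set T := (Finset.univ : Finset (Fin (n + 1))).filter fun a => x a ≠ 0
    have h1 := (Finset.sum_le_sum fun a (_ : a ∈ T) => cone_volume hK hxp a).trans
      (sum_cones_le (isClosed_piece hKc _ ε) (fun z hz => hz.2) T
        fun a ha => (Finset.mem_filter.1 ha).2)
    rw [hP _ _ ε ε₀] at h1
    have hsec : ∀ a : Fin (n + 1), ∀ η, volume (piece K a.succAboveEmb η) ≠ ⊤ := fun a η =>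
      ne_top_of_le_ne_top (hK.section_zero a).compact.measure_lt_top.ne (measure_mono fun y hy => by
        have h := hy.1
        have e := ext_trans a (Embedding.refl _) y
        rw [ext_refl] at e
        show (a.insertNth 0 y : Fin (n + 1) → ℝ) ∈ K
        rw [← e]
        exact h)
    have hfin : ∀ a ∈ T, ENNReal.ofReal (|x a| / (n + 1))
        * volume (piece K a.succAboveEmb fun i => ε (a.succAbove i)) ≠ ⊤ :=
      fun a _ => ENNReal.mul_ne_top ENNReal.ofReal_ne_top (hsec a _)
    have h2 := ENNReal.toReal_mono (hpiece ε₀) h1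
    rw [ENNReal.toReal_sum hfin] at h2
    rw [← Finset.sum_subset (Finset.filter_subset (fun a => x a ≠ 0) Finset.univ) fun a _ ha => by
      simp only [Finset.mem_filter, Finset.mem_univ, true_and, not_not] at ha; simp [ha]]
    refine le_trans (le_of_eq ?_) (mul_le_mul_of_nonneg_left h2 (by positivity))
    rw [Finset.mul_sum]
    refine Finset.sum_congr rfl fun a _ => ?_
    rw [ENNReal.toReal_mul, ENNReal.toReal_ofReal (by positivity), hP _ _ _ η₀]
    simp only [A, Measure.real]
    field_simp
  set c := fun a => A a / (((n : ℝ) + 1) * V1) with hc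
  have hden : 0 < ((n : ℝ) + 1) * V1 := mul_pos (by positivity) hV1
  have hbox : ∀ w, (∀ i, |w i| ≤ c i) → w ∈ dual K := by
    intro w hw x hx
    calc w ⬝ᵥ x ≤ ∑ a, |x a| * c a := by
          refine Finset.sum_le_sum fun a _ => ?_
          refine (le_abs_self _).trans ?_
          rw [abs_mul, mul_comm]
          exact mul_le_mul_of_nonneg_left (hw a) (abs_nonneg _)
      _ = (∑ a, |x a| * A a) / (((n : ℝ) + 1) * V1) := by
          simp only [c, mul_div_assoc', Finset.sum_div]
      _ ≤ 1 := (div_le_one hden).2 (hcone x hx)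
  have hs := proj_sum_le (isCompact_dual hK) (convex_dual K)
    (fun a => div_nonneg (hA0 a) hden.le) hbox
  have hproj : ∀ a : Fin (n + 1), volume.real (dual (sec a K 0))
      ≤ volume.real ((fun y => a.removeNth y) '' dual K) := fun a =>
    measureReal_mono (dual_sec_subset hK a)
      ((isCompact_dual hK).image (continuous_pi fun j => continuous_apply _)).measure_lt_top.ne
  rw [hV]
  calc 4 * ∑ a, volume.real (sec a K 0) * volume.real (dual (sec a K 0))
      ≤ 4 * ∑ a, 2 ^ n * A a * volume.real ((fun y => a.removeNth y) '' dual K) := by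
        refine mul_le_mul_of_nonneg_left (Finset.sum_le_sum fun a _ => ?_) (by norm_num)
        rw [volume_sec_eq_piece hK hP a η₀]
        exact mul_le_mul_of_nonneg_left (hproj a) (mul_nonneg (by positivity) (hA0 a))
    _ = 2 ^ (n + 1) * V1 * ((n : ℝ) + 1)
          * (2 * ∑ a, c a * volume.real ((fun y => a.removeNth y) '' dual K)) := by
        simp only [Finset.mul_sum, c]
        refine Finset.sum_congr rfl fun a _ => ?_
        field_simp
        ring
    _ ≤ 2 ^ (n + 1) * V1 * ((n : ℝ) + 1) * (((n : ℝ) + 1) * volume.real (dual K)) :=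
        mul_le_mul_of_nonneg_left hs (by positivity)
    _ = _ := by ring

/-- The symmetric Mahler inequality for equipartitioned bodies. -/
theorem mahler_real : ∀ (n : ℕ) (K : Set (Fin n → ℝ)), Body K → Part K →
    (4 : ℝ) ^ n / n ! ≤ volume.real K * volume.real (dual K) := by
  intro n
  induction n with
  | zero =>
    intro K hK _
    have hu : ∀ S : Set (Fin 0 → ℝ), (0 : Fin 0 → ℝ) ∈ S → volume.real S = 1 := fun S hS => by
      rw [show S = univ from eq_univ_of_forall fun x => by rwa [Subsingleton.elim x 0],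
        Measure.real, volume_pi, Measure.pi_empty_univ, ENNReal.toReal_one]
    rw [hu K hK.zero_mem, hu _ (zero_mem_dual K)]
    simp
  | succ n ih =>
    intro K hK hP
    have h := step hK hP
    have hsum : ((n : ℝ) + 1) * (4 ^ n / n !)
        ≤ ∑ a, volume.real (sec a K 0) * volume.real (dual (sec a K 0)) := by
      refine le_trans (le_of_eq ?_)
        (Finset.sum_le_sum fun a _ => ih _ (hK.section_zero a) (part_sec hP a))
      simp
    have hn : (0 : ℝ) < (n : ℝ) + 1 := by positivity
    refine le_of_mul_le_mul_left (le_trans ?_ h) (by positivity : (0 : ℝ) < ((n : ℝ) + 1) ^ 2)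
    refine le_trans (le_of_eq ?_) (mul_le_mul_of_nonneg_left hsum (by norm_num : (0 : ℝ) ≤ 4))
    rw [Nat.factorial_succ]
    push_cast
    field_simp
    ring

theorem mahler {K : Set (Fin n → ℝ)} (hK : Body K) (hP : Part K) :
    ENNReal.ofReal (4 ^ n / n !) ≤ volume K * volume (dual K) := by
  rw [← ENNReal.ofReal_toReal hK.compact.measure_lt_top.ne,
    ← ENNReal.ofReal_toReal hK.dual_volume_ne_top, ← ENNReal.ofReal_mul ENNReal.toReal_nonneg]
  exact ENNReal.ofReal_le_ofReal (mahler_real n K hK hP)

end

end Vale.Agent.P248.Equi
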