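import Vale.Agent.P248.Equi.Core

/-!
# P248: reflections and quarter turns give equipartitioned sections

Every coordinate is either reflected or belongs to a turned pair. In a coordinate section a turned
coordinate whose partner is missing is reflected by the square of the turn.
-/

namespace Vale.Agent.P248.Equi

open MeasureTheory Set Matrix Function
open scoped ENNReal

noncomputable section

variable {n k : ℕ}

/-- A signed permutation of the coordinates. -/
def gmap (σ : Equiv.Perm (Fin k)) (s : Fin k → Bool) (y : Fin k → ℝ) : Fin k → ℝ :=
  fun m => sgn (s m) * y (σ m)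

theorem measurePreserving_gmap (σ : Equiv.Perm (Fin k)) (s : Fin k → Bool) :
    MeasurePreserving (gmap σ s) volume volume := by
  have h1 : MeasurePreserving (fun (y : Fin k → ℝ) m => sgn (s m) * y m) volume volume := by
    refine volume_preserving_pi (f := fun m v => sgn (s m) * v) fun m => ?_
    cases s m
    · convert Measure.measurePreserving_neg (volume : Measure ℝ) using 1
      funext v
      simp [sgn]
    · convert MeasurePreserving.id (volume : Measure ℝ) using 1
      funext v
      simp [sgn]
  exact h1.comp (volume_measurePreserving_piCongrLeft (fun _ : Fin k => ℝ) σ).symm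

/-- A signed permutation keeping the section maps a piece into a piece. -/
theorem piece_le_gmap {K : Set (Fin n → ℝ)} (hK : IsClosed K) (ι : Fin k ↪ Fin n)
    (σ : Equiv.Perm (Fin k)) (s : Fin k → Bool)
    (hmem : ∀ y, ext ι y ∈ K → ext ι (gmap σ s y) ∈ K) (ε η : Fin k → Bool)
    (hη : ∀ m, sgn (η m) * sgn (s m) = sgn (ε (σ m))) :
    volume (piece K ι ε) ≤ volume (piece K ι η) := by
  rw [← (measurePreserving_gmap σ s).measure_preimage
    (isClosed_piece hK ι η).nullMeasurableSet]
  refine measure_mono fun y hy => ⟨hmem y hy.1, fun m => ?_⟩
  show 0 ≤ sgn (η m) * (sgn (s m) * y (σ m))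
  rw [← mul_assoc, hη]
  exact hy.2 _

/-- The reflection of one coordinate. -/
def refl1 (i : Fin n) (x : Fin n → ℝ) : Fin n → ℝ := fun m => if m = i then -x m else x m

/-- The quarter turn of two coordinates. -/
def turn2 (i j : Fin n) (x : Fin n → ℝ) : Fin n → ℝ :=
  fun m => if m = i then -x j else if m = j then x i else x m

theorem part_of_symm {q : ℕ} {K : Set (Fin n → ℝ)} (hK : IsClosed K) (S : Finset (Fin n))
    (e : Fin q × Fin 2 ↪ Fin n) (hcover : ∀ j, j ∈ S ∨ ∃ p, e p = j)
    (hF : ∀ i ∈ S, ∀ x ∈ K, refl1 i x ∈ K)
    (hT : ∀ p, ∀ x ∈ K, turn2 (e (p, 0)) (e (p, 1)) x ∈ K) : Part K := by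
  intro k ι ε ε'
  have key : ∀ (η : Fin k → Bool) (i : Fin k),
      volume (piece K ι η) ≤ volume (piece K ι (update η i (!η i))) := by
    intro η i
    have byflip : (∀ y, ext ι y ∈ K → refl1 (ι i) (ext ι y) ∈ K) →
        volume (piece K ι η) ≤ volume (piece K ι (update η i (!η i))) := fun h => by
      refine piece_le_gmap hK ι (Equiv.refl _) (fun m => !decide (m = i)) (fun y hy => ?_) η _
        fun m => ?_
      · have h' := h y hy
        convert h' using 1
        funext j
        by_cases hj : ∃ m, ι m = j
        · obtain ⟨m, rfl⟩ := hj
          rw [ext_apply, refl1, ext_apply]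
          rcases eq_or_ne m i with rfl | hm
          · simp [gmap, sgn]
          · simp [gmap, sgn, hm, ι.injective.ne hm]
        · rw [ext_apply' ι _ hj, refl1, ext_apply' ι _ hj]
          simp
      · rcases eq_or_ne m i with rfl | hm
        · cases hm' : η m <;> simp [sgn, hm']
        · simp [sgn, hm]
    rcases hcover (ι i) with hi | ⟨⟨p, d⟩, hp⟩
    · exact byflip fun y hy => hF _ hi _ hy
    have hne : e (p, 0) ≠ e (p, 1) := fun h => by simpa using e.injective h
    by_cases hboth : (∃ a, ι a = e (p, 0)) ∧ ∃ b, ι b = e (p, 1)
    swap
    · refine byflip fun y hy => ?_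
      have h2 := hT p _ (hT p _ hy)
      convert h2 using 1
      have hz : ∀ j, (¬∃ a, ι a = j) → ext ι y j = 0 := fun j h => ext_apply' ι y h
      funext j
      simp only [refl1, turn2, hne.symm, if_true, if_false]
      fin_cases d
      · simp only [Fin.zero_eta, Fin.isValue] at hp
        have h1 : ext ι y (e (p, 1)) = 0 := hz _ fun h => hboth ⟨⟨i, hp.symm⟩, h⟩
        rw [← hp]
        rcases eq_or_ne j (e (p, 0)) with rfl | h0
        · simp
        rcases eq_or_ne j (e (p, 1)) with rfl | h1'
        · simp [hne.symm, h1]
        · simp [h0, h1']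
      · simp only [Fin.mk_one, Fin.isValue] at hp
        have h1 : ext ι y (e (p, 0)) = 0 := hz _ fun h => hboth ⟨h, ⟨i, hp.symm⟩⟩
        rw [← hp]
        rcases eq_or_ne j (e (p, 0)) with rfl | h0
        · simp [hne, h1]
        rcases eq_or_ne j (e (p, 1)) with rfl | h1'
        · simp [hne.symm]
        · simp [h0, h1']
    obtain ⟨⟨a, ha⟩, b, hb⟩ := hboth
    have hab : a ≠ b := fun h => hne (by rw [← ha, ← hb, h])
    set T : (Fin k → Bool) → Fin k → Bool :=
      fun η m => if m = a then !η b else if m = b then η a else η m
    have hTle : ∀ η, volume (piece K ι η) ≤ volume (piece K ι (T η)) := fun η => by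
      refine piece_le_gmap hK ι (Equiv.swap a b) (fun m => !decide (m = a)) (fun y hy => ?_) η _
        fun m => ?_
      · have h' := hT p _ hy
        convert h' using 1
        funext j
        by_cases hj : ∃ m, ι m = j
        · obtain ⟨m, rfl⟩ := hj
          rw [ext_apply, turn2, ← ha, ← hb, ext_apply, ext_apply, ext_apply]
          rcases eq_or_ne m a with rfl | hma
          · simp [gmap, sgn, Equiv.swap_apply_left]
          rcases eq_or_ne m b with rfl | hmb
          · simp [gmap, sgn, Equiv.swap_apply_right, hma, ι.injective.ne hma]
          · simp [gmap, sgn, Equiv.swap_apply_of_ne_of_ne hma hmb, hma,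
              ι.injective.ne hma, ι.injective.ne hmb]
        · rw [ext_apply' ι _ hj, turn2, if_neg fun h => hj ⟨a, by rw [ha, h]⟩,
            if_neg fun h => hj ⟨b, by rw [hb, h]⟩, ext_apply' ι _ hj]
      · simp only [T]
        rcases eq_or_ne m a with rfl | hma
        · cases hb' : η b <;> simp [sgn, Equiv.swap_apply_left, hb']
        rcases eq_or_ne m b with rfl | hmb
        · simp [sgn, Equiv.swap_apply_right, hma]
        · simp [sgn, Equiv.swap_apply_of_ne_of_ne hma hmb, hma, hmb]
    have hi : i = a ∨ i = b := by
      fin_cases d
      · exact Or.inl (ι.injective (hp.symm.trans ha.symm))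
      · exact Or.inr (ι.injective (hp.symm.trans hb.symm))
    have hT1 := hTle η
    have hT3 := (hTle η).trans ((hTle _).trans (hTle (T (T η))))
    have hu : update η i (!η i) = T η ∨ update η i (!η i) = T (T (T η)) := by
      rcases hi with rfl | rfl
      · rcases Bool.eq_or_eq_not (η i) (η b) with h | h
        · left; funext m; simp only [T, update_apply]
          split_ifs <;> simp_all
        · right; funext m; simp only [T, update_apply]
          rcases eq_or_ne m i with rfl | h1
          · simp [hab.symm, h]
          rcases eq_or_ne m b with rfl | h2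
          · simp [h1, h]
          · simp [h1, h2]
      · rcases Bool.eq_or_eq_not (η a) (η i) with h | h
        · right; funext m; simp only [T, update_apply]
          rcases eq_or_ne m a with rfl | h1
          · simp [hab, hab.symm, h]
          rcases eq_or_ne m i with rfl | h2
          · simp [h1, h]
          · simp [h1, h2]
        · left; funext m; simp only [T, update_apply]
          rcases eq_or_ne m a with rfl | h1
          · simp [hab, h]
          rcases eq_or_ne m i with rfl | h2
          · simp [h1, h]
          · simp [h1, h2]
    rcases hu with h | h <;> rw [h]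
    · exact hT1
    · exact hT3
  have hflip : ∀ (η : Fin k → Bool) (i : Fin k),
      volume (piece K ι η) = volume (piece K ι (update η i (!η i))) := fun η i =>
    le_antisymm (key η i) (le_of_le_of_eq (key _ i) (by simp))
  have main : ∀ A : Finset (Fin k), ∀ η η' : Fin k → Bool, (∀ m ∉ A, η m = η' m) →
      volume (piece K ι η) = volume (piece K ι η') := by
    intro A
    induction A using Finset.induction_on with
    | empty =>
      intro η η' h
      rw [funext fun m => h m (Finset.notMem_empty m)]
    | @insert a A _ ih =>
      intro η η' h
      rcases Bool.eq_or_eq_not (η a) (η' a) with he | he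
      · refine ih η η' fun m hm => ?_
        rcases eq_or_ne m a with rfl | hne
        · exact he
        · exact h m (by simp [hne, hm])
      · rw [hflip η a]
        refine ih _ η' fun m hm => ?_
        rcases eq_or_ne m a with rfl | hne
        · simp [he]
        · rw [update_of_ne hne]; exact h m (by simp [hne, hm])
  exact main Finset.univ ε ε' fun m hm => absurd (Finset.mem_univ m) hm

end

end Vale.Agent.P248.Equi
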